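import Vale.Agent.P181.TRI.Defs

set_option autoImplicit false

/-!
# P181, TRI [T5]: regrouping the pieces
-/

namespace Vale.Agent.P181.TRI.H23

open Finset Function Vale.Agent.P181.TRI

theorem ie {α : Type} [DecidableEq α] (A B C : Finset α) : A.card + B.card + C.card ≤
    (A ∪ B ∪ C).card + (A ∩ B).card + (B ∩ C).card + (A ∩ C).card := by
  have h1 := Finset.card_union_add_card_inter A B
  have h2 := Finset.card_union_add_card_inter (A ∪ B) C
  have h3 : ((A ∪ B) ∩ C).card ≤ (A ∩ C).card + (B ∩ C).card := by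
    rw [Finset.union_inter_distrib_right]
    exact Finset.card_union_le _ _
  omega

section

variable {N q e M : ℕ} {P : Fin N → Pc q × Fin e → Fin M}

theorem three (hP : ∀ i, Injective (P i)) (i j k : Fin N) :
    3 * (2 * q * e) ≤ M + com P i j + com P j k + com P i k := by
  have h := ie (univ.image (P i)) (univ.image (P j)) (univ.image (P k))
  have hc : ∀ i, (univ.image (P i)).card = 2 * q * e := fun i => by
    rw [card_image_of_injective _ (hP i), card_univ, Fintype.card_prod, Fintype.card_prod,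
      Fintype.card_fin, Fintype.card_fin, Fintype.card_fin]
    ring
  have hM : (univ.image (P i) ∪ univ.image (P j) ∪ univ.image (P k)).card ≤ M :=
    (card_le_univ _).trans (by rw [Fintype.card_fin])
  unfold com
  rw [hc, hc, hc] at h
  omega

theorem com_comm (i k : Fin N) : com P i k = com P k i := by
  unfold com
  rw [Finset.inter_comm]

/-- the pieces of two sets of slots of the same size -/
theorem full (τ : Equiv.Perm (Fin N × Pc q)) (S T : Finset (Fin N)) (hc : T.card ≤ S.card)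
    (h : ∀ G ∈ S, ∀ t, (τ (G, t)).1 ∈ T) (x : Fin N × Pc q) (hx : x.1 ∈ T) :
    (τ.symm x).1 ∈ S := by
  have h1 : (S ×ˢ (univ : Finset (Pc q))).image τ ⊆ T ×ˢ (univ : Finset (Pc q)) := by
    intro y hy
    obtain ⟨⟨G, t⟩, hGt, rfl⟩ := mem_image.1 hy
    exact mem_product.2 ⟨h G (mem_product.1 hGt).1 t, mem_univ _⟩
  have h2 : (T ×ˢ (univ : Finset (Pc q))).card ≤
      ((S ×ˢ (univ : Finset (Pc q))).image τ).card := by
    rw [card_image_of_injective _ τ.injective, card_product, card_product]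
    exact Nat.mul_le_mul_right _ hc
  have h3 := Finset.eq_of_subset_of_card_le h1 h2
  have h4 : x ∈ (S ×ˢ (univ : Finset (Pc q))).image τ := by
    rw [h3]
    exact mem_product.2 ⟨hx, mem_univ _⟩
  obtain ⟨y, hy, rfl⟩ := mem_image.1 h4
  rw [Equiv.symm_apply_apply]
  exact (mem_product.1 hy).1

/-- the regrouped colouring -/
def re (P : Fin N → Pc q × Fin e → Fin M) (τ : Equiv.Perm (Fin N × Pc q)) (j : Fin N)
    (x : Pc q × Fin e) : Fin M := P (τ (j, x.1)).1 ((τ (j, x.1)).2, x.2)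

theorem comP_le (τ : Equiv.Perm (Fin N × Pc q)) (G G' : Fin N) (t u : Pc q) :
    comP P (τ (G, t)).1 (τ (G', u)).1 (τ (G, t)).2 (τ (G', u)).2 ≤ com (re P τ) G G' := by
  unfold comP com
  refine card_le_card (inter_subset_inter ?_ ?_)
  · intro y hy
    obtain ⟨s, -, rfl⟩ := mem_image.1 hy
    exact mem_image.2 ⟨(t, s), mem_univ _, rfl⟩
  · intro y hy
    obtain ⟨s, -, rfl⟩ := mem_image.1 hy
    exact mem_image.2 ⟨(u, s), mem_univ _, rfl⟩

/-- `(G, G')` is related to `(i, k)` -/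
def Rel (L1 : ℕ) (P : Fin N → Pc q × Fin e → Fin M) (τ : Equiv.Perm (Fin N × Pc q)) (z : Pc q)
    (x y : Fin N × Fin N) : Prop :=
  y.1 ≠ y.2 ∧ com P y.1 y.2 < L1 ∧ (∀ t, (τ (x.1, t)).1 = y.1 ∨ (τ (x.1, t)).1 = y.2) ∧
    (∀ t, (τ (x.2, t)).1 = y.1 ∨ (τ (x.2, t)).1 = y.2) ∧
    (y.1 < y.2 → (τ.symm (y.1, z)).1 = x.1) ∧ (y.2 < y.1 → (τ.symm (y.2, z)).1 = x.2)

/-- two slots with all origins among two slots contain all their pieces -/
theorem full2 (τ : Equiv.Perm (Fin N × Pc q)) {G G' i k : Fin N} (hG : G ≠ G') (hik : i ≠ k)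
    (h1 : ∀ t, (τ (G, t)).1 = i ∨ (τ (G, t)).1 = k)
    (h2 : ∀ t, (τ (G', t)).1 = i ∨ (τ (G', t)).1 = k) (x : Fin N × Pc q)
    (hx : x.1 = i ∨ x.1 = k) : (τ.symm x).1 = G ∨ (τ.symm x).1 = G' := by
  have h := full τ {G, G'} {i, k} (by rw [card_pair hG, card_pair hik]) (by
    intro H hH t
    rw [mem_insert, mem_singleton]
    rcases mem_insert.1 hH with rfl | hH
    · exact h1 t
    · rw [mem_singleton.1 hH]
      exact h2 t) x (by
    rw [mem_insert, mem_singleton]
    exact hx)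
  rw [mem_insert, mem_singleton] at h
  exact h

theorem rel_inj {L1 : ℕ} {τ : Equiv.Perm (Fin N × Pc q)} {z : Pc q} {x x' y : Fin N × Fin N}
    (hx : x.1 ≠ x.2) (hx' : x'.1 ≠ x'.2) (h : Rel L1 P τ z x y) (h' : Rel L1 P τ z x' y) :
    x = x' := by
  obtain ⟨a1, -, a2, a3, a4, a5⟩ := h
  obtain ⟨-, -, b2, b3, b4, b5⟩ := h'
  have key : ∀ G, (∀ t, (τ (G, t)).1 = y.1 ∨ (τ (G, t)).1 = y.2) → G = x.1 ∨ G = x.2 := by
    intro G hG
    have h := full2 τ hx a1 a2 a3 (τ (G, z)) (hG z)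
    rwa [Equiv.symm_apply_apply] at h
  rcases lt_or_gt_of_ne a1 with h | h
  · have e1 : x.1 = x'.1 := by rw [← a4 h, ← b4 h]
    have e2 : x'.2 = x.2 := by
      rcases key x'.2 b3 with h1 | h1
      · exact absurd (e1.symm.trans h1.symm) hx'
      · exact h1
    exact Prod.ext e1 e2.symm
  · have e1 : x.2 = x'.2 := by rw [← a5 h, ← b5 h]
    have e2 : x'.1 = x.1 := by
      rcases key x'.1 b2 with h1 | h1
      · exact h1
      · exact absurd (h1.trans e1) hx'
    exact Prod.ext e2.symm e1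

end

/-- **[T5]** -/
theorem drop : DropStmt := by
  intro N q e M L1 L2 hq hL1 hM hL P hP hcut τ hinj hunm
  have hinj' : ∀ j, Injective (re P τ j) := hinj
  have hunm' : unm L1 P ≤ unm L1 (re P τ) := hunm
  clear hinj hunm
  have T3 : ∀ i j k, 2 * L2 + L1 ≤ com P i j + com P j k + com P i k := by
    intro i j k
    have := three hP i j k
    omega
  have two : ∀ j t t', (τ (j, t)).1 ≠ (τ (j, t')).1 →
      com P (τ (j, t)).1 (τ (j, t')).1 < L1 := by
    intro j t t' hne
    by_contra hcon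
    have h1 := (hcut _ _ hne).1 (not_lt.1 hcon) (τ (j, t)).2 (τ (j, t')).2
    obtain ⟨c, hc⟩ := card_pos.1 h1
    obtain ⟨hc1, hc2⟩ := mem_inter.1 hc
    obtain ⟨s, -, hs⟩ := mem_image.1 hc1
    obtain ⟨s', -, hs'⟩ := mem_image.1 hc2
    have h2 : re P τ j (t, s) = re P τ j (t', s') := hs.trans hs'.symm
    have h3 := hinj' j h2
    simp only [Prod.mk.injEq] at h3
    exact hne (by rw [h3.1])
  have onlytwo : ∀ j t t', (τ (j, t)).1 ≠ (τ (j, t')).1 → ∀ u,
      (τ (j, u)).1 = (τ (j, t)).1 ∨ (τ (j, u)).1 = (τ (j, t')).1 := by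
    intro j t t' hne u
    by_contra hcon
    rw [not_or] at hcon
    have h1 := two j t t' hne
    have h2 := two j u t hcon.1
    have h3 := two j u t' hcon.2
    have h4 := T3 (τ (j, u)).1 (τ (j, t)).1 (τ (j, t')).1
    omega
  have third : ∀ G G', com (re P τ) G G' < L1 → ∀ t t', (τ (G, t)).1 ≠ (τ (G, t')).1 → ∀ u,
      (τ (G', u)).1 = (τ (G, t)).1 ∨ (τ (G', u)).1 = (τ (G, t')).1 := by
    intro G G' hG t t' hne u
    by_contra hcon
    rw [not_or] at hcon
    have h1 := two G t t' hne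
    have h4 := T3 (τ (G, t)).1 (τ (G, t')).1 (τ (G', u)).1
    have h5 : L2 ≤ com P (τ (G, t)).1 (τ (G', u)).1 ∨ L2 ≤ com P (τ (G, t')).1 (τ (G', u)).1 := by
      omega
    rcases h5 with h5 | h5
    · have h6 := (hcut _ _ (Ne.symm hcon.1)).2 h5 (τ (G, t)).2 (τ (G', u)).2
      have h7 := comP_le (P := P) τ G G' t u
      omega
    · have h6 := (hcut _ _ (Ne.symm hcon.2)).2 h5 (τ (G, t')).2 (τ (G', u)).2
      have h7 := comP_le (P := P) τ G G' t' u
      omega
  have U : ∀ G G', G ≠ G' → com (re P τ) G G' < L1 → ∃ i k, i ≠ k ∧ com P i k < L1 ∧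
      (∀ t, (τ (G, t)).1 = i ∨ (τ (G, t)).1 = k) ∧
      ∀ t, (τ (G', t)).1 = i ∨ (τ (G', t)).1 = k := by
    intro G G' hGG hG
    by_cases c1 : ∃ t t', (τ (G, t)).1 ≠ (τ (G, t')).1
    · obtain ⟨t, t', hne⟩ := c1
      exact ⟨_, _, hne, two G t t' hne, onlytwo G t t' hne, third G G' hG t t' hne⟩
    by_cases c2 : ∃ t t', (τ (G', t)).1 ≠ (τ (G', t')).1
    · obtain ⟨t, t', hne⟩ := c2
      rw [com_comm] at hG
      exact ⟨_, _, hne, two G' t t' hne, third G' G hG t t' hne, onlytwo G' t t' hne⟩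
    push Not at c1 c2
    have z : Pc q := (⟨0, hq⟩, 0)
    have f1 : ∀ x : Fin N × Pc q, x.1 = (τ (G, z)).1 → (τ.symm x).1 = G := by
      intro x hx
      have h := full τ {G} {(τ (G, z)).1} (by simp) (by
        intro H hH t
        rw [mem_singleton.1 hH, mem_singleton]
        exact c1 t z) x (by rw [mem_singleton]; exact hx)
      exact mem_singleton.1 h
    have f2 : ∀ x : Fin N × Pc q, x.1 = (τ (G', z)).1 → (τ.symm x).1 = G' := by
      intro x hx
      have h := full τ {G'} {(τ (G', z)).1} (by simp) (by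
        intro H hH t
        rw [mem_singleton.1 hH, mem_singleton]
        exact c2 t z) x (by rw [mem_singleton]; exact hx)
      exact mem_singleton.1 h
    refine ⟨(τ (G, z)).1, (τ (G', z)).1, ?_, ?_, fun t => Or.inl (c1 t z),
      fun t => Or.inr (c2 t z)⟩
    · intro h
      have h1 := f1 (τ (G', z)) h.symm
      rw [Equiv.symm_apply_apply] at h1
      exact hGG h1.symm
    · refine lt_of_le_of_lt ?_ hG
      unfold com
      refine card_le_card (inter_subset_inter ?_ ?_)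
      · intro c hc
        obtain ⟨⟨u, s⟩, -, rfl⟩ := mem_image.1 hc
        have h1 := f1 ((τ (G, z)).1, u) rfl
        have h2 : τ (G, (τ.symm ((τ (G, z)).1, u)).2) = ((τ (G, z)).1, u) := by
          have h3 : (G, (τ.symm ((τ (G, z)).1, u)).2) = τ.symm ((τ (G, z)).1, u) :=
            Prod.ext h1.symm rfl
          rw [h3, Equiv.apply_symm_apply]
        refine mem_image.2 ⟨((τ.symm ((τ (G, z)).1, u)).2, s), mem_univ _, ?_⟩
        show P (τ (G, (τ.symm ((τ (G, z)).1, u)).2)).1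
          ((τ (G, (τ.symm ((τ (G, z)).1, u)).2)).2, s) = _
        rw [h2]
      · intro c hc
        obtain ⟨⟨u, s⟩, -, rfl⟩ := mem_image.1 hc
        have h1 := f2 ((τ (G', z)).1, u) rfl
        have h2 : τ (G', (τ.symm ((τ (G', z)).1, u)).2) = ((τ (G', z)).1, u) := by
          have h3 : (G', (τ.symm ((τ (G', z)).1, u)).2) = τ.symm ((τ (G', z)).1, u) :=
            Prod.ext h1.symm rfl
          rw [h3, Equiv.apply_symm_apply]
        refine mem_image.2 ⟨((τ.symm ((τ (G', z)).1, u)).2, s), mem_univ _, ?_⟩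
        show P (τ (G', (τ.symm ((τ (G', z)).1, u)).2)).1
          ((τ (G', (τ.symm ((τ (G', z)).1, u)).2)).2, s) = _
        rw [h2]
  let z : Pc q := (⟨0, hq⟩, 0)
  have exR : ∀ x : Fin N × Fin N, x.1 ≠ x.2 → com (re P τ) x.1 x.2 < L1 →
      ∃ y, Rel L1 P τ z x y := by
    rintro ⟨G, G'⟩ hGG hG
    simp only at hGG hG
    obtain ⟨i, k, hik, hcom, h1, h2⟩ := U G G' hGG hG
    have key : ∀ i k : Fin N, i < k → com P i k < L1 →
        (∀ t, (τ (G, t)).1 = i ∨ (τ (G, t)).1 = k) →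
        (∀ t, (τ (G', t)).1 = i ∨ (τ (G', t)).1 = k) → ∃ y, Rel L1 P τ z (G, G') y := by
      intro i k hlt hcom h1 h2
      rcases full2 τ hGG hlt.ne h1 h2 (i, z) (Or.inl rfl) with h | h
      · exact ⟨(i, k), hlt.ne, hcom, h1, h2, fun _ => h, fun h' => absurd h' hlt.not_gt⟩
      · refine ⟨(k, i), hlt.ne', by rw [com_comm]; exact hcom, fun t => (h1 t).symm,
          fun t => (h2 t).symm, fun h' => absurd h' hlt.not_gt, fun _ => h⟩
    rcases lt_or_gt_of_ne hik with h | h
    · exact key i k h hcom h1 h2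
    · exact key k i h (by rw [com_comm]; exact hcom) (fun t => (h1 t).symm) fun t => (h2 t).symm
  -- the counting
  have hit : ∀ y : Fin N × Fin N, y.1 ≠ y.2 → com P y.1 y.2 < L1 →
      ∃ x : Fin N × Fin N, x.1 ≠ x.2 ∧ Rel L1 P τ z x y := by
    intro y hy1 hy2
    unfold unm at hunm'
    set S := univ.filter fun x : Fin N × Fin N => x.1 ≠ x.2 ∧ com P x.1 x.2 < L1 with hS
    set S' := univ.filter fun x : Fin N × Fin N => x.1 ≠ x.2 ∧ com (re P τ) x.1 x.2 < L1 with hS'
    have hS'm : ∀ x, x ∈ S' → x.1 ≠ x.2 ∧ com (re P τ) x.1 x.2 < L1 := fun x hx =>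
      (mem_filter.1 hx).2
    let f : Fin N × Fin N → Fin N × Fin N := fun x =>
      if h : x ∈ S' then (exR x (hS'm x h).1 (hS'm x h).2).choose else x
    have hf : ∀ x ∈ S', Rel L1 P τ z x (f x) := by
      intro x hx
      have e : f x = (exR x (hS'm x hx).1 (hS'm x hx).2).choose := dif_pos hx
      rw [e]
      exact (exR x (hS'm x hx).1 (hS'm x hx).2).choose_spec
    have h1 : S'.image f ⊆ S := by
      intro w hw
      obtain ⟨x, hx, rfl⟩ := mem_image.1 hw
      exact mem_filter.2 ⟨mem_univ _, (hf x hx).1, (hf x hx).2.1⟩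
    have h2 : (S'.image f).card = S'.card := by
      refine card_image_of_injOn ?_
      intro x hx x' hx' hxx
      have g1 := hf x hx
      have g2 := hf x' hx'
      have hxx' : f x = f x' := hxx
      rw [hxx'] at g1
      exact rel_inj (hS'm x hx).1 (hS'm x' hx').1 g1 g2
    have h3 := Finset.eq_of_subset_of_card_le h1 (by rw [h2]; exact hunm')
    have h4 : y ∈ S'.image f := by
      rw [h3]
      exact mem_filter.2 ⟨mem_univ _, hy1, hy2⟩
    obtain ⟨x, hx, rfl⟩ := mem_image.1 h4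
    exact ⟨x, (hS'm x hx).1, hf x hx⟩
  have fin : ∀ j t t', (τ (j, t)).1 ≠ (τ (j, t')).1 → ∀ l, l ≠ (τ (j, t)).1 →
      l ≠ (τ (j, t')).1 → L1 ≤ com P (τ (j, t)).1 l := by
    intro j t t' hne l hl hl'
    by_contra hcon
    obtain ⟨x, hx, h0, -, h1, h2, -, -⟩ := hit ((τ (j, t)).1, l) (Ne.symm hl) (not_le.1 hcon)
    have h3 := full2 τ hx h0 h1 h2 (τ (j, t)) (Or.inl rfl)
    rw [Equiv.symm_apply_apply] at h3
    simp only at h3 h1 h2
    rcases h3 with h3 | h3
    · rw [← h3] at h1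
      rcases h1 t' with h4 | h4
      · exact hne h4.symm
      · exact hl' h4.symm
    · rw [← h3] at h2
      rcases h2 t' with h4 | h4
      · exact hne h4.symm
      · exact hl' h4.symm
  intro j t t' hne
  exact ⟨hne, two j t t' hne, fun l hl hl' =>
    ⟨fin j t t' hne l hl hl', fin j t' t (Ne.symm hne) l hl' hl⟩⟩

end Vale.Agent.P181.TRI.H23
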